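import Vale.Agent.P207.N3.H747.USysI
import Vale.Agent.P207.N3.H465.FrMet
import Vale.Agent.P207.N3.H863.SlopeUSys
import Vale.Agent.P207.N3.H863.Lip

/-!
# P207, N3: the slope function of a closed 3-manifold is Hölder

`holder_slope_fr`: the slope function `s` of the system `usys D h` of helper747, with the metric of
the frame bundle of helper465, satisfies `‖s x u - s x' u‖ ≤ C * dist x x' ^ α`. (helper863)
-/

open scoped Manifold ContDiff ENNReal Topology
open Bundle MeasureTheory Set Filter Topology Metric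

noncomputable section

set_option maxSynthPendingDepth 3
set_option linter.unusedSectionVars false

namespace Vale.Agent.P207.N3.H863

open Vale.Agent.P255 (RMetric)
open Vale.Agent.P207.Q Vale.Agent.P207.Q.Fl
open Vale.Agent.P207.N3.H747 Vale.Agent.P207.N3.H566 Vale.Agent.P207.N3.H465

section General

variable {n : ℕ} {M : Type} [TopologicalSpace M] [ChartedSpace (EV n) M]
  [IsManifold 𝓘(ℝ, EV n) ∞ M] {g : RMetric (EV n) M} [Nonempty (Fr g)] [NeZero n]
  {E W : Type} [NormedAddCommGroup E] [NormedSpace ℝ E] [FiniteDimensional ℝ E]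
  [NormedAddCommGroup W] [NormedSpace ℝ W]

/-- smooth along plots near the points of `S` -/
theorem smOn_of_psm {H : Fr g × E → W} {S : Set (Fr g × E)} (h : ∀ p ∈ S, PSm H p) :
    SmOn (frSys g).dif (fun x e => H (x, e)) S := by
  intro E' _ _ _ u v y hu hv hS
  exact h (u y, v y) hS E' (fun z => (u z, v z)) y rfl ⟨hu, hv⟩

end General

variable {M : Type} [TopologicalSpace M] [ChartedSpace (EV 3) M] [IsManifold 𝓘(ℝ, EV 3) ∞ M]
  {g : RMetric (EV 3) M} [CompactSpace M] [T2Space M] [Nonempty (Fr g)]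

theorem smOn_ff {ρ : ℝ} (h : TubeR g ρ) :
    SmOn (frSys g).dif (ff g) {q : Fr g × (E2 × E2) | ‖q.2.1‖ < ρ} :=
  smOn_of_psm (H := fun q : Fr g × (E2 × E2) => ff g q.1 q.2) fun _ hq => psm_ff h hq

/-- the right side of the geodesic equation is Lipschitz in the frame -/
theorem exists_lip_ff (hL : LipSec (frSys g).dif) {ρ : ℝ} (h : TubeR g ρ) {ρ' : ℝ} (hρ : ρ' < ρ) :
    ∃ C : ℝ, 0 ≤ C ∧ ∀ x x', ∀ z ∈ closedBall (0 : E2 × E2) ρ',
      ‖ff g x z - ff g x' z‖ ≤ C * dist x x' := by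
  obtain ⟨C, hC, H⟩ := SmOn.lip_fst hL (smOn_ff h) (isCompact_univ (X := Fr g))
    (isCompact_closedBall (0 : E2 × E2) ρ') (by
      rintro ⟨x, z⟩ ⟨-, hz⟩
      rw [mem_closedBall_zero_iff] at hz
      exact ((norm_fst_le z).trans hz).trans_lt hρ)
  exact ⟨C, hC, fun x x' z hz => H x (mem_univ _) x' (mem_univ _) z hz⟩

/-- **the slope function is Hölder** -/
theorem holder_slope_fr (hL : LipSec (frSys g).dif) (D : MDat g (fl g)) {ρ : ℝ} (h : TubeR g ρ)
    {ε δ : ℝ} {s : Fr g → E2 → E2} (hs : (usys D h).Slope ε δ s) :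
    ∃ ε₁ C α : ℝ, 0 < ε₁ ∧ ε₁ < ε ∧ 0 ≤ C ∧ 0 < α ∧ α ≤ 1 ∧ ∀ x x',
      ∀ u ∈ closedBall (0 : E2) ε₁, ‖s x u - s x' u‖ ≤ C * dist x x' ^ α := by
  obtain ⟨K, hK, hfl⟩ := (isHorFlow_fl (g := g)).isFlow.exists_dist_le
  obtain ⟨C, hC, hff⟩ := exists_lip_ff hL h (half_lt_self h.1)
  refine usys_holder (usys D h) hs (fun s t x => fl_add s t x) hK.le (C₁ := 1) ?_
    (half_pos h.1) hff
  intro t ht x x'
  refine (hfl t x x').trans (le_of_eq ?_)
  rw [abs_of_nonpos ht, one_mul]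
  congr 2
  ring

/-- **Hölder direction fields**: substitution of the slope into a smooth function. -/
theorem holder_comp_slope (hL : LipSec (frSys g).dif) (D : MDat g (fl g)) {ρ : ℝ}
    (h : TubeR g ρ) {ε δ : ℝ} {s : Fr g → E2 → E2} (hs : (usys D h).Slope ε δ s)
    {W : Type} [NormedAddCommGroup W] [NormedSpace ℝ W] {F : Fr g → E2 × E2 → W} {ρ₁ : ℝ}
    (hρ₁ : 0 < ρ₁) (hF : SmOn (frSys g).dif F (univ ×ˢ (ball 0 ρ₁ ×ˢ univ))) :
    ∃ r : ℝ, 0 < r ∧ r < ρ₁ ∧ r < ε ∧ ∃ C α : ℝ, 0 < α ∧ α ≤ 1 ∧ ∀ x x',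
      ∀ u ∈ closedBall (0 : E2) r, ‖F x (u, s x u) - F x' (u, s x' u)‖ ≤ C * dist x x' ^ α := by
  obtain ⟨ε₁, C, α, hε₁, hε₁ε, hC, hα, hα1, H⟩ := holder_slope_fr hL D h hs
  set r : ℝ := min ε₁ (ρ₁ / 2) with hr
  have hr0 : 0 < r := by positivity
  have hr1 : r ≤ ε₁ := min_le_left _ _
  have hr2 : r < ρ₁ := (min_le_right _ _).trans_lt (by linarith)
  have hrε : r < ε := hr1.trans_lt hε₁ε
  refine ⟨r, hr0, hr2, hrε, ?_⟩
  -- a bound for the slope
  have hc : ContinuousOn (fun p : Fr g × E2 => s p.1 p.2) (univ ×ˢ closedBall 0 r) := by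
    have h1 : JC s (univ ×ˢ ball 0 ε) :=
      ⟨isOpen_univ.prod isOpen_ball, fun x => (hs.smooth x).mono fun _ hu => hu.2, hs.cont⟩
    exact h1.continuousOn.mono (prod_mono_right (closedBall_subset_ball hrε))
  obtain ⟨B, hB⟩ := ((isCompact_univ (X := Fr g)).prod
    (isCompact_closedBall (0 : E2) r)).exists_bound_of_continuousOn hc
  have hK : IsCompact ((univ : Set (Fr g)) ×ˢ (closedBall (0 : E2) r ×ˢ closedBall (0 : E2) B)) :=
    isCompact_univ.prod ((isCompact_closedBall _ _).prod (isCompact_closedBall _ _))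
  have hKS : (univ : Set (Fr g)) ×ˢ (closedBall (0 : E2) r ×ˢ closedBall (0 : E2) B) ⊆
      univ ×ˢ (ball 0 ρ₁ ×ˢ univ) := by
    rintro ⟨x, u, w⟩ ⟨-, hu, -⟩
    exact ⟨mem_univ _, closedBall_subset_ball hr2 hu, mem_univ _⟩
  obtain ⟨C', -, H'⟩ := SmOn.holder_comp hL hF (Q := univ) isCompact_univ
    (h := fun x u => ((u, s x u) : E2 × E2)) (T := closedBall (0 : E2) r) hK hKS
    (fun x _ u hu => ⟨mem_univ _, hu, mem_closedBall_zero_iff.2 (hB (x, u) ⟨mem_univ _, hu⟩)⟩)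
    (C₀ := C) hα hα1 (by
      intro x _ x' _ u hu
      have h1 := H x x' u (closedBall_subset_closedBall hr1 hu)
      have h2 : ((u, s x u) : E2 × E2) - (u, s x' u) = (0, s x u - s x' u) := by
        rw [Prod.mk_sub_mk, sub_self]
      rw [h2, Prod.norm_mk, norm_zero]
      exact max_le (by positivity) h1)
  exact ⟨C', α, hα, hα1, fun x x' u hu => H' x (mem_univ _) x' (mem_univ _) u hu⟩

end Vale.Agent.P207.N3.H863
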