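import Vale.Agent.P207.N3.H459.Dirn
import Vale.Agent.P207.N3.H465.LipS
import Vale.Agent.P207.N3.H863.FrHol
import Vale.Agent.P207.N3.H863.SmD
import Vale.Agent.P207.N3.H863.H1

/-!
# P207, N3: the field `hold` of helper76's `Geo.In3` over model (A)

The tubes of a closed 3-manifold of negative curvature depend on the frame in a Hölder way.
(helper863)
-/

open scoped Manifold ContDiff ENNReal Topology
open Bundle MeasureTheory Set Filter Topology Metric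

noncomputable section

set_option maxSynthPendingDepth 3
set_option linter.unusedSectionVars false

namespace Vale.Agent.P207.N3.H863

open Vale.Agent.P255 (RMetric Npc)
open Vale.Agent.P207 Vale.Agent.P207.Q Vale.Agent.P207.Q.Fl
open Vale.Agent.P207.N3.H465 (Deck PB Mt toMt ofMt Xt homeoMt dd)
open Vale.Agent.P207.N3.H566 (XF XM Exp lift difX SmOn)
open Vale.Agent.P207.N3.H747 (fl TubeR usys PSm)
open Vale.Agent.P207.N3.H156 (geoA jA dirA lfA smOn_lfA)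
open Vale.Agent.P207.N3.H265 (Mc zt wt psm_Mc)
open Vale.Agent.P207.N3.H76 (pk)
open Vale.Agent.P207.N3.H459 (dirS epS)

variable {M : Type} [TopologicalSpace M] [ChartedSpace (EV 3) M] [IsManifold 𝓘(ℝ, EV 3) ∞ M]
  {g : RMetric (EV 3) M} [CompactSpace M] [T2Space M] [Nonempty (Fr g)]

/-- the direction as a function of the frame, of the point of the disc and of the slope -/
def dirF (g : RMetric (EV 3) M) [Nonempty (Fr g)] (x : Fr g) (q : E2 × E2) : EV 3 :=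
  ‖Mc g (x, pk 0 q.1) (pk 1 q.2)‖⁻¹ • Mc g (x, pk 0 q.1) (pk 1 q.2)

theorem zt_eq_dirF (gs : Fr g → E2 → E2) (x : Fr g) (u : E2) :
    zt g gs x u = dirF g x (u, gs x u) := rfl

theorem smOn_dirF {ρ : ℝ} (h : TubeR g ρ) :
    SmOn (frSys g).dif (dirF g) (univ ×ˢ (ball 0 ρ ×ˢ univ)) := by
  have h1 : SmOn (frSys g).dif (fun x (z : EV 3) => Mc g (x, z)) univ :=
    smOn_of_psm (H := Mc g) fun p _ => psm_Mc p
  have h2 : ContDiff ℝ ∞ (fun q : E2 × E2 => (pk 0 q.1 : EV 3)) :=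
    H747.contDiff_pk' contDiff_const contDiff_fst
  have h3 : ContDiff ℝ ∞ (fun q : E2 × E2 => (pk 1 q.2 : EV 3)) :=
    H747.contDiff_pk' contDiff_const contDiff_snd
  have h4 : SmOn (frSys g).dif (fun x (q : E2 × E2) => Mc g (x, pk 0 q.1))
      (univ ×ˢ (ball 0 ρ ×ˢ univ)) :=
    smOn_comp_right (f := fun (x : Fr g) (z : EV 3) => Mc g (x, z)) (S := univ)
      (φ := fun q : E2 × E2 => (pk 0 q.1 : EV 3)) h1 h2 fun _ _ => mem_univ _
  have h5 : SmOn (frSys g).dif (fun (_ : Fr g) (q : E2 × E2) => (pk 1 q.2 : EV 3))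
      (univ ×ˢ (ball 0 ρ ×ˢ univ)) := smOn_const (fun q : E2 × E2 => (pk 1 q.2 : EV 3)) h3
  have h8 : SmOn (frSys g).dif (fun x (q : E2 × E2) => Mc g (x, pk 0 q.1) (pk 1 q.2))
      (univ ×ˢ (ball 0 ρ ×ˢ univ)) :=
    smOn_clm_apply (A := fun (x : Fr g) (q : E2 × E2) => Mc g (x, pk 0 q.1))
      (f := fun (_ : Fr g) (q : E2 × E2) => (pk 1 q.2 : EV 3)) h4 h5
  have h9 : ∀ p ∈ (univ ×ˢ (ball 0 ρ ×ˢ univ) : Set (Fr g × (E2 × E2))),
      Mc g (p.1, pk 0 p.2.1) (pk 1 p.2.2) ≠ 0 := by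
    intro p hp h0
    have h6 : (pk 1 p.2.2 : EV 3) = 0 :=
      H265.Mc_injective h p.1 (H265.mem_tube_disc (mem_ball_zero_iff.1 hp.2.1))
        (h0.trans (map_zero _).symm)
    have h7 : (pk 1 p.2.2 : EV 3) 0 = 0 := by rw [h6]; rfl
    rw [H76.pk_zero] at h7
    exact one_ne_zero h7
  show SmOn (frSys g).dif (fun (x : Fr g) (q : E2 × E2) =>
    ‖Mc g (x, pk 0 q.1) (pk 1 q.2)‖⁻¹ • Mc g (x, pk 0 q.1) (pk 1 q.2)) _
  exact smOn_normalize (D := (frSys g).dif) (S := univ ×ˢ (ball 0 ρ ×ˢ univ))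
    (f := fun (x : Fr g) (q : E2 × E2) => Mc g (x, pk 0 q.1) (pk 1 q.2)) h8 h9

/-- **the direction field is Hölder on the frame bundle** -/
theorem holder_zt (D : MDat g (fl g)) {ρ : ℝ} (h : TubeR g ρ) {ε δ : ℝ} {gs : Fr g → E2 → E2}
    (hg : (usys D h).Slope ε δ gs) :
    ∃ r : ℝ, 0 < r ∧ r < ρ ∧ r < ε ∧ ∃ C α : ℝ, 0 < α ∧ α ≤ 1 ∧ ∀ x x' : Fr g,
      ∀ u ∈ closedBall (0 : E2) r, ‖zt g gs x u - zt g gs x' u‖ ≤ C * dist x x' ^ α :=
  holder_comp_slope (H465.lipSec_frSys g) D h hg h.1 (smOn_dirF h)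

variable [ConnectedSpace M] (hN : NegCurvature g) (m : M) (Dm : MDat g (fl g)) {ρ : ℝ}
  (hT : TubeR g ρ) {ε δ : ℝ} {gs : Fr g → E2 → E2} (hg : (usys Dm hT).Slope ε δ gs)

/-- the tubes are Lipschitz in the frame and in the direction -/
theorem lip_lfA {Q : Set (Xt g (npc_of_neg hN) m)} (hQ : IsCompact Q) (r S₀ : ℝ) :
    ∃ C : ℝ, ∀ y ∈ Q, ∀ y' ∈ Q, ∀ u ∈ closedBall (0 : E2) r,
      ∀ w ∈ closedBall (0 : E3) S₀, ∀ w' ∈ closedBall (0 : E3) S₀,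
      ‖Exp ((sys g (npc_of_neg hN)).cov m) (lfA (npc_of_neg hN) m y u) w -
        Exp ((sys g (npc_of_neg hN)).cov m) (lfA (npc_of_neg hN) m y' u) w'‖ ≤
        C * (dist y y' + ‖w - w'‖) := by
  obtain ⟨C, hC, H⟩ := SmOn.lip (F := fun (x : Xt g (npc_of_neg hN) m) (p : E2 × E3) =>
    Exp ((sys g (npc_of_neg hN)).cov m) (lfA (npc_of_neg hN) m x p.1) p.2)
    (H465.lipSec_difX (npc_of_neg hN) m) (smOn_lfA (npc_of_neg hN) m)
    (hQ.prod ((isCompact_closedBall (0 : E2) r).prod (isCompact_closedBall (0 : E3) S₀)))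
    (subset_univ _)
  refine ⟨C, fun y hy y' hy' u hu w hw w' hw' => ?_⟩
  refine (H (y, (u, w)) ⟨hy, hu, hw⟩ (y', (u, w')) ⟨hy', hu, hw'⟩).trans ?_
  refine mul_le_mul_of_nonneg_left ?_ hC
  rw [Prod.dist_eq, dist_self]
  refine max_le ?_ (max_le (by positivity) ?_)
  · linarith [norm_nonneg (w - w')]
  · rw [dist_eq_norm]
    linarith [dist_nonneg (x := y) (y := y')]

/-- **THE FIELD `hold` OF `Geo.In3`** for the direction field `dirS` of helper459. -/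
theorem hold_dirS : ∃ θ : ℝ, 0 < θ ∧
    ∀ Q : Set (Xt g (npc_of_neg hN) m), IsCompact Q → ∀ S₀ : ℝ, ∃ C α : ℝ, 0 < α ∧
      ∀ y ∈ Q, ∀ y' ∈ Q, ∀ s ∈ Icc (-S₀) S₀, ∀ v ∈ closedBall (0 : E2) θ,
      ‖jA (npc_of_neg hN) m ((geoA hN m).E ((dirS hN m Dm hT hg).lf y v)
          (s • (dirS hN m Dm hT hg).W y v)) -
        jA (npc_of_neg hN) m ((geoA hN m).E ((dirS hN m Dm hT hg).lf y' v)
          (s • (dirS hN m Dm hT hg).W y' v))‖ ≤ C * dist y y' ^ α := by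
  obtain ⟨r, hr, -, -, C, α, hα, hα1, H⟩ := holder_zt Dm hT hg
  have hε : 0 < (dirS hN m Dm hT hg).ε := (dirS hN m Dm hT hg).ε_pos
  set θ : ℝ := min r ((dirS hN m Dm hT hg).ε / 2) with hθ
  have hθ0 : 0 < θ := by positivity
  have hθ1 : θ < (dirS hN m Dm hT hg).ε := (min_le_right _ _).trans_lt (by linarith)
  refine ⟨θ, hθ0, hold_of (dirS hN m Dm hT hg) hθ1 (fun Q hQ S₀ => lip_lfA hN m hQ θ S₀)
    fun Q _ => ⟨|C|, α, hα, hα1, fun y _ y' _ u hu => ?_⟩⟩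
  have h1 := H y.f y'.f u (closedBall_subset_closedBall (min_le_left _ _) hu)
  refine (show ‖zt g gs y.f u - zt g gs y'.f u‖ ≤ |C| * dist y y' ^ α from h1.trans ?_)
  have h2 : dist y.f y'.f ≤ dist y y' := H465.PB.dist_f_le y y'
  have h3 : 0 ≤ dist y.f y'.f ^ α := Real.rpow_nonneg dist_nonneg _
  calc C * dist y.f y'.f ^ α ≤ |C| * dist y.f y'.f ^ α :=
        mul_le_mul_of_nonneg_right (le_abs_self _) h3
    _ ≤ |C| * dist y y' ^ α :=
        mul_le_mul_of_nonneg_left (Real.rpow_le_rpow dist_nonneg h2 hα.le) (abs_nonneg _)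

end Vale.Agent.P207.N3.H863
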