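import Vale.Agent.P207.N3.H76.In3A
import Vale.Agent.P207.N3.H863.HoldA

/-!
# P207, N3: the geometric input `Geo.In3` exists for a closed 3-manifold of negative curvature
-/

open scoped Manifold ContDiff ENNReal Topology
open Bundle MeasureTheory Set Filter Topology Metric

noncomputable section

set_option maxSynthPendingDepth 3
set_option linter.unusedSectionVars false

namespace Vale.Agent.P207.N3.H863

open Vale.Agent.P255 (RMetric Npc)
open Vale.Agent.P207 Vale.Agent.P207.Q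
open Vale.Agent.P207.N3.H747 (fl TubeR usys)
open Vale.Agent.P207.N3.H156 (geoA jA)
open Vale.Agent.P207.N3.H76 (HoldF in3A)
open Vale.Agent.P207.N3.H459 (dirS)

variable {M : Type} [TopologicalSpace M] [ChartedSpace (EV 3) M] [IsManifold 𝓘(ℝ, EV 3) ∞ M]
  {g : RMetric (EV 3) M} [CompactSpace M] [T2Space M] [Nonempty (Fr g)] [ConnectedSpace M]
  (hN : NegCurvature g) (m : M) (Dm : MDat g (fl g))

/-- the field `hold` -/
theorem exists_holdF {ρ : ℝ} (hT : TubeR g ρ) {ε δ : ℝ} {gs : Fr g → E2 → E2}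
    (hg : (usys Dm hT).Slope ε δ gs) : ∃ θ : ℝ, 0 < θ ∧ HoldF (dirS hN m Dm hT hg) θ :=
  hold_dirS hN m Dm hT hg

/-- **the complete geometric input over model (A)** -/
theorem exists_in3A : ∃ (ρ : ℝ) (hT : TubeR g ρ) (ε δ : ℝ) (gs : Fr g → E2 → E2)
    (hg : (usys Dm hT).Slope ε δ gs) (θ : ℝ) (hθ : 0 < θ)
    (hold : HoldF (dirS hN m Dm hT hg) θ) (I : (geoA hN m).In3 (jA (npc_of_neg hN) m)),
    I = in3A hN m Dm hT hg hθ hold := by
  obtain ⟨ρ, hT⟩ := H747.exists_tubeR (g := g)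
  obtain ⟨ε, δ, gs, hg⟩ := H747.exists_slope_fr Dm hT
  obtain ⟨θ, hθ, hold⟩ := exists_holdF hN m Dm hT hg
  exact ⟨ρ, hT, ε, δ, gs, hg, θ, hθ, hold, _, rfl⟩

end Vale.Agent.P207.N3.H863
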